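import Vale.Agent.Lib.P074.Third.Basic

/-!
# P074: the centroid inequality for two power diagrams with the same sites
-/

namespace Vale.Agent.Lib.P074.Centroid

open MeasureTheory ENNReal

variable {d n : ℕ}

lemma exp_small : Real.exp (1 / 100) ≤ 1.0102 := by
  have h := Real.exp_bound_div_one_sub_of_interval' (x := 1 / 100) (by norm_num) (by norm_num)
  norm_num at h ⊢
  linarith

/-- `|exp s - exp t| ≤ exp ω * |s - t|` for `s, t ≤ ω`. -/
lemma abs_exp_sub_exp_le {s t ω : ℝ} (hs : s ≤ ω) (ht : t ≤ ω) :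
    |Real.exp s - Real.exp t| ≤ Real.exp ω * |s - t| := by
  have key : ∀ s t : ℝ, s ≤ ω → t ≤ s → Real.exp s - Real.exp t ≤ Real.exp ω * (s - t) := by
    intro s t hs hts
    have h1 : Real.exp t = Real.exp s * Real.exp (-(s - t)) := by
      rw [← Real.exp_add]; congr 1; ring
    have h2 : 1 - (s - t) ≤ Real.exp (-(s - t)) := Real.one_sub_le_exp_neg _
    have h3 : Real.exp s ≤ Real.exp ω := Real.exp_le_exp.2 hs
    have h4 : 0 < Real.exp s := Real.exp_pos _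
    have h5 : 0 ≤ s - t := by linarith
    rw [h1]
    nlinarith
  rcases le_total t s with h | h
  · rw [abs_of_nonneg (by have := Real.exp_le_exp.2 h; linarith), abs_of_nonneg (by linarith)]
    exact key s t hs h
  · rw [abs_sub_comm, abs_sub_comm s t,
      abs_of_nonneg (by have := Real.exp_le_exp.2 h; linarith), abs_of_nonneg (by linarith)]
    exact key t s ht h

lemma abs_sq_norm_sub_le {x x' : E d} {D : ℝ} (hx : ‖x‖ ≤ D) (hx' : ‖x'‖ ≤ D) :
    |‖x‖ ^ 2 - ‖x'‖ ^ 2| ≤ 2 * D * ‖x - x'‖ := by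
  have h := abs_norm_sub_norm_le x x'
  have e : ‖x‖ ^ 2 - ‖x'‖ ^ 2 = (‖x‖ - ‖x'‖) * (‖x‖ + ‖x'‖) := by ring
  rw [e, abs_mul, abs_of_nonneg (add_nonneg (norm_nonneg x) (norm_nonneg x'))]
  calc |‖x‖ - ‖x'‖| * (‖x‖ + ‖x'‖) ≤ ‖x - x'‖ * (2 * D) := by
        apply mul_le_mul h (by linarith) (add_nonneg (norm_nonneg x) (norm_nonneg x'))
          (norm_nonneg _)
    _ = 2 * D * ‖x - x'‖ := by ring

/-- The first test function `x ↦ exp ((lam/2) ‖x‖²)` is Lipschitz on a set of radius `D`. -/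
lemma w1_lip {lam D : ℝ} (hlam : 0 ≤ lam) {x x' : E d} (hx : ‖x‖ ≤ D) (hx' : ‖x'‖ ≤ D) :
    |Real.exp (lam / 2 * ‖x‖ ^ 2) - Real.exp (lam / 2 * ‖x'‖ ^ 2)|
      ≤ Real.exp (lam / 2 * D ^ 2) * lam * D * ‖x - x'‖ := by
  have hD : 0 ≤ D := (norm_nonneg x).trans hx
  have h1 : lam / 2 * ‖x‖ ^ 2 ≤ lam / 2 * D ^ 2 := by
    have : ‖x‖ ^ 2 ≤ D ^ 2 := pow_le_pow_left₀ (norm_nonneg _) hx 2
    nlinarith
  have h2 : lam / 2 * ‖x'‖ ^ 2 ≤ lam / 2 * D ^ 2 := by
    have : ‖x'‖ ^ 2 ≤ D ^ 2 := pow_le_pow_left₀ (norm_nonneg _) hx' 2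
    nlinarith
  have h3 := abs_exp_sub_exp_le h1 h2
  have h4 : |lam / 2 * ‖x‖ ^ 2 - lam / 2 * ‖x'‖ ^ 2| ≤ lam * D * ‖x - x'‖ := by
    have e : lam / 2 * ‖x‖ ^ 2 - lam / 2 * ‖x'‖ ^ 2 = lam / 2 * (‖x‖ ^ 2 - ‖x'‖ ^ 2) := by ring
    rw [e, abs_mul, abs_of_nonneg (by positivity : (0 : ℝ) ≤ lam / 2)]
    have := abs_sq_norm_sub_le hx hx'
    nlinarith
  calc |Real.exp (lam / 2 * ‖x‖ ^ 2) - Real.exp (lam / 2 * ‖x'‖ ^ 2)|
      ≤ Real.exp (lam / 2 * D ^ 2) * |lam / 2 * ‖x‖ ^ 2 - lam / 2 * ‖x'‖ ^ 2| := h3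
    _ ≤ Real.exp (lam / 2 * D ^ 2) * (lam * D * ‖x - x'‖) :=
        mul_le_mul_of_nonneg_left h4 (Real.exp_pos _).le
    _ = Real.exp (lam / 2 * D ^ 2) * lam * D * ‖x - x'‖ := by ring

/-- The second test function `x ↦ exp ((lam/2) ‖x‖²) ⟨u, x⟩`, `‖u‖ ≤ 1`, is Lipschitz on a set of
radius `D`. -/
lemma w2_lip {lam D : ℝ} (hlam : 0 ≤ lam) {u : E d} (hu : ‖u‖ ≤ 1) {x x' : E d} (hx : ‖x‖ ≤ D)
    (hx' : ‖x'‖ ≤ D) :
    |Real.exp (lam / 2 * ‖x‖ ^ 2) * inner ℝ u x - Real.exp (lam / 2 * ‖x'‖ ^ 2) * inner ℝ u x'|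
      ≤ Real.exp (lam / 2 * D ^ 2) * (1 + lam * D ^ 2) * ‖x - x'‖ := by
  have hD : 0 ≤ D := (norm_nonneg x).trans hx
  have h1 : lam / 2 * ‖x‖ ^ 2 ≤ lam / 2 * D ^ 2 := by
    have : ‖x‖ ^ 2 ≤ D ^ 2 := pow_le_pow_left₀ (norm_nonneg _) hx 2
    nlinarith
  have e : Real.exp (lam / 2 * ‖x‖ ^ 2) * inner ℝ u x
      - Real.exp (lam / 2 * ‖x'‖ ^ 2) * inner ℝ u x'
      = Real.exp (lam / 2 * ‖x‖ ^ 2) * inner ℝ u (x - x')
        + (Real.exp (lam / 2 * ‖x‖ ^ 2) - Real.exp (lam / 2 * ‖x'‖ ^ 2)) * inner ℝ u x' := by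
    rw [inner_sub_right]; ring
  have i1 : |inner ℝ u (x - x')| ≤ ‖x - x'‖ := by
    have := abs_real_inner_le_norm u (x - x')
    have h' : ‖u‖ * ‖x - x'‖ ≤ 1 * ‖x - x'‖ := mul_le_mul_of_nonneg_right hu (norm_nonneg _)
    linarith
  have i2 : |inner ℝ u x'| ≤ D := by
    have := abs_real_inner_le_norm u x'
    have h' : ‖u‖ * ‖x'‖ ≤ 1 * D := mul_le_mul hu hx' (norm_nonneg _) zero_le_one
    linarith
  have i3 := w1_lip hlam hx hx'
  have i4 : Real.exp (lam / 2 * ‖x‖ ^ 2) ≤ Real.exp (lam / 2 * D ^ 2) := Real.exp_le_exp.2 h1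
  rw [e]
  calc |Real.exp (lam / 2 * ‖x‖ ^ 2) * inner ℝ u (x - x')
        + (Real.exp (lam / 2 * ‖x‖ ^ 2) - Real.exp (lam / 2 * ‖x'‖ ^ 2)) * inner ℝ u x'|
      ≤ |Real.exp (lam / 2 * ‖x‖ ^ 2) * inner ℝ u (x - x')|
        + |(Real.exp (lam / 2 * ‖x‖ ^ 2) - Real.exp (lam / 2 * ‖x'‖ ^ 2)) * inner ℝ u x'| :=
        abs_add_le _ _
    _ ≤ Real.exp (lam / 2 * D ^ 2) * ‖x - x'‖
        + (Real.exp (lam / 2 * D ^ 2) * lam * D * ‖x - x'‖) * D := by
        rw [abs_mul, abs_mul, abs_of_pos (Real.exp_pos _)]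
        apply add_le_add
        · exact mul_le_mul i4 i1 (abs_nonneg _) (Real.exp_pos _).le
        · exact mul_le_mul i3 i2 (abs_nonneg _) (by positivity)
    _ = Real.exp (lam / 2 * D ^ 2) * (1 + lam * D ^ 2) * ‖x - x'‖ := by ring

lemma sqrt_step {a b c u : ℝ} (ha : 0 ≤ a) (hb : 0 ≤ b) (hc : 0 ≤ c)
    (h : a * b * Real.exp (2 * u) ≤ c ^ 2) : Real.sqrt (a * b) * (1 + u) ≤ c := by
  have h1 : Real.sqrt (a * b) * Real.exp u ≤ c := by
    have h2 : (Real.sqrt (a * b) * Real.exp u) ^ 2 ≤ c ^ 2 := by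
      rw [mul_pow, Real.sq_sqrt (mul_nonneg ha hb), ← Real.exp_nat_mul]
      simpa using h
    exact (abs_le_of_sq_le_sq' h2 hc).2
  have h3 : 1 + u ≤ Real.exp u := by linarith [Real.add_one_le_exp u]
  calc Real.sqrt (a * b) * (1 + u) ≤ Real.sqrt (a * b) * Real.exp u :=
        mul_le_mul_of_nonneg_left h3 (Real.sqrt_nonneg _)
    _ ≤ c := h1

lemma unif_apply_of_subset {K S : Set (E d)} (hS : MeasurableSet S) (hSK : S ⊆ K) :
    unif K S = (volume K)⁻¹ * volume S := by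
  unfold unif
  rw [Measure.smul_apply, Measure.restrict_apply hS, Set.inter_eq_left.2 hSK, smul_eq_mul]

lemma unif_restrict_of_subset {K S : Set (E d)} (hS : MeasurableSet S) (hSK : S ⊆ K) :
    (unif K).restrict S = (volume K)⁻¹ • volume.restrict S := by
  unfold unif
  rw [Measure.restrict_smul, Measure.restrict_restrict hS, Set.inter_eq_left.2 hSK]

lemma cmass_eq {K : Set (E d)} (hK : IsCompact K) (y : Fin (n + 1) → E d) (ψ : Fin (n + 1) → ℝ)
    (k : Fin (n + 1)) :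
    cmass K y ψ k = (volume K).toReal⁻¹ * (volume (pcell K y ψ k)).toReal := by
  unfold cmass
  rw [unif_apply_of_subset (measurableSet_pcell hK.isClosed y ψ k) (pcell_subset K y ψ k),
    ENNReal.toReal_mul, ENNReal.toReal_inv]

lemma cmom_eq {K : Set (E d)} (hK : IsCompact K) (y : Fin (n + 1) → E d) (ψ : Fin (n + 1) → ℝ)
    (k : Fin (n + 1)) :
    cmom K y ψ k = (volume K).toReal⁻¹ • ∫ x in pcell K y ψ k, x := by
  unfold cmom
  rw [unif_restrict_of_subset (measurableSet_pcell hK.isClosed y ψ k) (pcell_subset K y ψ k),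
    integral_smul_measure, ENNReal.toReal_inv]

lemma sum_setIntegral_pcell {K : Set (E d)} (hK : IsCompact K) {y : Fin (n + 1) → E d}
    (hy : Function.Injective y) (ψ : Fin (n + 1) → ℝ) (f : E d → ℝ) (hf : Continuous f) :
    ∑ k, ∫ x in pcell K y ψ k, f x = ∫ x in K, f x := by
  have h := integral_iUnion_ae (μ := volume) (f := f) (s := fun k => pcell K y ψ k)
    (fun k => (measurableSet_pcell hK.isClosed y ψ k).nullMeasurableSet)
    (fun k j hkj => volume_pcell_inter hy ψ hkj)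
    (by rw [iUnion_pcell]; exact hf.continuousOn.integrableOn_compact hK)
  rw [iUnion_pcell, tsum_fintype] at h
  exact h.symm

lemma gauss_cell_bounds {K S : Set (E d)} (hK : IsCompact K) (hS : MeasurableSet S)
    (hSK : S ⊆ K) {lam D : ℝ} (hlam : 0 ≤ lam) (hD : ∀ x ∈ K, ‖x‖ ≤ D) :
    Real.exp (-(lam / 2 * D ^ 2)) * (volume S).toReal ≤ ∫ x in S, gw lam x ∧
      ∫ x in S, gw lam x ≤ (volume S).toReal := by
  have hfin : volume S ≠ ⊤ := ((measure_mono hSK).trans_lt hK.measure_lt_top).ne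
  have hcont : Continuous (gw (d := d) lam) := by unfold gw; fun_prop
  have hint : IntegrableOn (gw lam) S := (hcont.continuousOn.integrableOn_compact hK).mono_set hSK
  constructor
  · have h1 : ∫ _ in S, Real.exp (-(lam / 2 * D ^ 2)) ≤ ∫ x in S, gw lam x := by
      apply setIntegral_mono_on (integrableOn_const hfin) hint hS
      intro x hx
      unfold gw
      apply Real.exp_le_exp.2
      have h2 := hD x (hSK hx)
      have h3 : ‖x‖ ^ 2 ≤ D ^ 2 := pow_le_pow_left₀ (norm_nonneg _) h2 2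
      nlinarith
    rw [setIntegral_const, smul_eq_mul] at h1
    have h1' : (volume S).toReal * Real.exp (-(lam / 2 * D ^ 2)) ≤ ∫ x in S, gw lam x := h1
    linarith
  · have h1 : ∫ x in S, gw lam x ≤ ∫ _ in S, (1 : ℝ) := by
      apply setIntegral_mono_on hint (integrableOn_const hfin) hS
      intro x hx
      unfold gw
      rw [← Real.exp_zero]
      apply Real.exp_le_exp.2
      have := sq_nonneg ‖x‖
      nlinarith
    rw [setIntegral_const, smul_eq_mul, mul_one] at h1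
    exact h1

/-- One tilt step in the form used below. -/
lemma tilt_step (htilt : TiltStatement d) {K A B C : Set (E d)} (hK : IsCompact K)
    (hA : MeasurableSet A) (hB : MeasurableSet B) (hC : MeasurableSet C) (hAK : A ⊆ K)
    (hBK : B ⊆ K) (hCK : C ⊆ K) (hmid : ∀ x ∈ A, ∀ y ∈ B, (1 / 2 : ℝ) • (x + y) ∈ C)
    {lam L : ℝ} (hlam : 0 < lam) (hL : 0 < L) (w : E d → ℝ) (hw : Continuous w)
    (hlip : ∀ x ∈ K, ∀ y ∈ K, |w x - w y| ≤ L * ‖x - y‖) (ha : 0 < ∫ x in A, gw lam x)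
    (hb : 0 < ∫ x in B, gw lam x) :
    Real.sqrt ((∫ x in A, gw lam x) * (∫ x in B, gw lam x)) *
        (1 + lam / (8 * L ^ 2) * ((∫ x in A, gw lam x * w x) / (∫ x in A, gw lam x) -
          (∫ x in B, gw lam x * w x) / (∫ x in B, gw lam x)) ^ 2)
      ≤ ∫ x in C, gw lam x := by
  have h := htilt lam L hlam hL K A B C hK hA hB hC hAK hBK hCK hmid w hw hlip ha hb
  have hc : 0 ≤ ∫ x in C, gw lam x := setIntegral_nonneg hC (fun x _ => (Real.exp_pos _).le)
  apply sqrt_step ha.le hb.le hc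
  have e : 2 * (lam / (8 * L ^ 2) * ((∫ x in A, gw lam x * w x) / (∫ x in A, gw lam x) -
          (∫ x in B, gw lam x * w x) / (∫ x in B, gw lam x)) ^ 2)
      = lam * ((∫ x in A, gw lam x * w x) / (∫ x in A, gw lam x) -
          (∫ x in B, gw lam x * w x) / (∫ x in B, gw lam x)) ^ 2 / (4 * L ^ 2) := by
    field_simp
    ring
  rw [e]
  exact h

lemma gw_mul_exp (lam : ℝ) (x : E d) : gw lam x * Real.exp (lam / 2 * ‖x‖ ^ 2) = 1 := by
  unfold gw
  rw [← Real.exp_add]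
  have : -(lam / 2) * ‖x‖ ^ 2 + lam / 2 * ‖x‖ ^ 2 = 0 := by ring
  rw [this, Real.exp_zero]

lemma integrableOn_id_of_subset {K S : Set (E d)} (hK : IsCompact K) (hSK : S ⊆ K) :
    IntegrableOn (fun x : E d => x) S volume :=
  (continuous_id.continuousOn.integrableOn_compact hK).mono_set hSK

lemma norm_moment_le {K S : Set (E d)} (hK : IsCompact K) (hSK : S ⊆ K) {D : ℝ}
    (hD : ∀ x ∈ K, ‖x‖ ≤ D) : ‖∫ x in S, x‖ ≤ D * (volume S).toReal :=
  norm_setIntegral_le_of_norm_le_const ((measure_mono hSK).trans_lt hK.measure_lt_top)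
    (fun x hx => hD x (hSK hx))

end Vale.Agent.Lib.P074.Centroid

namespace Vale.Agent.Lib.P074

open MeasureTheory ENNReal Centroid

/-- For two power diagrams with the same sites, the first moments of the cells are Lipschitz in
the cell masses. -/
theorem centroid_of_tilt (d : ℕ) (htilt : TiltStatement d) (habs : AbsorbStatement d) :
    CentroidStatement d := by
  intro K hK hconv hint
  obtain ⟨D, hD0, hD⟩ : ∃ D : ℝ, 0 < D ∧ ∀ x ∈ K, ‖x‖ ≤ D := by
    obtain ⟨R, hR⟩ := hK.isBounded.subset_closedBall (0 : E d)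
    refine ⟨max R 1, by positivity, fun x hx => ?_⟩
    have h1 := hR hx
    rw [Metric.mem_closedBall, dist_zero_right] at h1
    exact h1.trans (le_max_left _ _)
  refine ⟨2500 * D ^ 2, by positivity, ?_⟩
  intro n y ψ ψ' hy hpos hclose
  set lam : ℝ := 1 / (50 * D ^ 2) with hlam
  have hlam0 : 0 < lam := by positivity
  have hlamD : lam * D ^ 2 = 1 / 50 := by
    rw [hlam]; field_simp
  have hω : lam / 2 * D ^ 2 = 1 / 100 := by linarith
  set q : ℝ := Real.exp (1 / 100) with hq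
  have hq1 : 1 ≤ q := Real.one_le_exp (by norm_num)
  have hq2 : q ≤ 1.0102 := exp_small
  have hq0 : 0 < q := Real.exp_pos _
  have hqsq : q ^ 2 ≤ 1.0206 := by nlinarith
  set ψm : Fin (n + 1) → ℝ := fun j => (ψ j + ψ' j) / 2 with hψm
  have mA : ∀ k, MeasurableSet (pcell K y ψ k) := fun k => measurableSet_pcell hK.isClosed y ψ k
  have mB : ∀ k, MeasurableSet (pcell K y ψ' k) :=
    fun k => measurableSet_pcell hK.isClosed y ψ' k
  have mC : ∀ k, MeasurableSet (pcell K y ψm k) :=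
    fun k => measurableSet_pcell hK.isClosed y ψm k
  have hVpos : 0 < (volume K).toReal :=
    ENNReal.toReal_pos (volume_pos_of_interior hint).ne' hK.measure_lt_top.ne
  set V := (volume K).toReal with hV
  set v : Fin (n + 1) → ℝ := fun k => (volume (pcell K y ψ k)).toReal with hv
  set v' : Fin (n + 1) → ℝ := fun k => (volume (pcell K y ψ' k)).toReal with hv'
  have hgcont : Continuous (gw (d := d) lam) := by unfold gw; fun_prop
  set a : Fin (n + 1) → ℝ := fun k => ∫ x in pcell K y ψ k, gw lam x with ha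
  set a' : Fin (n + 1) → ℝ := fun k => ∫ x in pcell K y ψ' k, gw lam x with ha'
  set c : Fin (n + 1) → ℝ := fun k => ∫ x in pcell K y ψm k, gw lam x with hc
  set P : Fin (n + 1) → E d := fun k => ∫ x in pcell K y ψ k, x with hP
  set P' : Fin (n + 1) → E d := fun k => ∫ x in pcell K y ψ' k, x with hP'
  set G : ℝ := ∫ x in K, gw lam x with hG
  -- masses in terms of volumes
  have hm : ∀ k, cmass K y ψ k = V⁻¹ * v k := fun k => cmass_eq hK y ψ k
  have hm' : ∀ k, cmass K y ψ' k = V⁻¹ * v' k := fun k => cmass_eq hK y ψ' k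
  have hmomP : ∀ k, cmom K y ψ k = V⁻¹ • P k := fun k => cmom_eq hK y ψ k
  have hmomP' : ∀ k, cmom K y ψ' k = V⁻¹ • P' k := fun k => cmom_eq hK y ψ' k
  have hvpos : ∀ k, 0 < v k := by
    intro k
    have h1 := hpos k
    rw [hm k] at h1
    exact (mul_pos_iff_of_pos_left (inv_pos.2 hVpos)).mp h1
  have hvclose : ∀ k, |v' k - v k| ≤ v k / 2 := by
    intro k
    have h1 := hclose k
    rw [hm k, hm' k, ← mul_sub, abs_mul, abs_of_pos (inv_pos.2 hVpos), mul_div_assoc] at h1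
    exact le_of_mul_le_mul_left h1 (inv_pos.2 hVpos)
  have hv'pos : ∀ k, 0 < v' k := by
    intro k
    have h1 := abs_le.mp (hvclose k)
    have h2 := hvpos k
    linarith
  have hqe : q * Real.exp (-(1 / 100)) = 1 := by
    rw [hq, ← Real.exp_add]; simp
  have hab : ∀ k, v k ≤ q * a k ∧ a k ≤ v k := by
    intro k
    obtain ⟨h1, h2⟩ := gauss_cell_bounds hK (mA k) (pcell_subset K y ψ k) hlam0.le hD
    rw [hω] at h1
    refine ⟨?_, h2⟩
    calc v k = q * (Real.exp (-(1 / 100)) * v k) := by rw [← mul_assoc, hqe, one_mul]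
      _ ≤ q * a k := mul_le_mul_of_nonneg_left h1 hq0.le
  have hab' : ∀ k, v' k ≤ q * a' k ∧ a' k ≤ v' k := by
    intro k
    obtain ⟨h1, h2⟩ := gauss_cell_bounds hK (mB k) (pcell_subset K y ψ' k) hlam0.le hD
    rw [hω] at h1
    refine ⟨?_, h2⟩
    calc v' k = q * (Real.exp (-(1 / 100)) * v' k) := by rw [← mul_assoc, hqe, one_mul]
      _ ≤ q * a' k := mul_le_mul_of_nonneg_left h1 hq0.le
  have hapos : ∀ k, 0 < a k := fun k =>
    (mul_pos_iff_of_pos_left hq0).mp (lt_of_lt_of_le (hvpos k) (hab k).1)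
  have hapos' : ∀ k, 0 < a' k := fun k =>
    (mul_pos_iff_of_pos_left hq0).mp (lt_of_lt_of_le (hv'pos k) (hab' k).1)
  have hPb : ∀ k, ‖P k‖ ≤ D * v k := fun k => norm_moment_le hK (pcell_subset K y ψ k) hD
  have hPb' : ∀ k, ‖P' k‖ ≤ D * v' k := fun k => norm_moment_le hK (pcell_subset K y ψ' k) hD
  have hsumA : ∑ k, a k = G := sum_setIntegral_pcell hK hy ψ _ hgcont
  have hsumB : ∑ k, a' k = G := sum_setIntegral_pcell hK hy ψ' _ hgcont
  have hsumC : ∑ k, c k = G := sum_setIntegral_pcell hK hy ψm _ hgcont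
  have hmid : ∀ k, ∀ x ∈ pcell K y ψ k, ∀ x' ∈ pcell K y ψ' k,
      (1 / 2 : ℝ) • (x + x') ∈ pcell K y ψm k :=
    fun k x hx x' hx' => pcell_midpoint hconv hx hx'
  -- first test function
  set L₁ : ℝ := q * lam * D with hL₁
  have hL₁0 : 0 < L₁ := by positivity
  set c₁ : ℝ := lam / (8 * L₁ ^ 2) with hc₁
  have hc₁6 : 6 ≤ c₁ := by
    rw [hc₁, le_div_iff₀ (by positivity)]
    have e : L₁ ^ 2 = q ^ 2 * lam * (lam * D ^ 2) := by rw [hL₁]; ring
    rw [e, hlamD]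
    nlinarith
  have hT1 : ∀ k, Real.sqrt (a k * a' k) * (1 + c₁ * (v k / a k - v' k / a' k) ^ 2) ≤ c k := by
    intro k
    have hw1c : Continuous (fun x : E d => Real.exp (lam / 2 * ‖x‖ ^ 2)) := by fun_prop
    have hlip : ∀ x ∈ K, ∀ x' ∈ K,
        |Real.exp (lam / 2 * ‖x‖ ^ 2) - Real.exp (lam / 2 * ‖x'‖ ^ 2)| ≤ L₁ * ‖x - x'‖ := by
      intro x hx x' hx'
      have h1 := w1_lip hlam0.le (hD x hx) (hD x' hx')
      rw [hω] at h1
      exact h1
    have h := tilt_step htilt hK (mA k) (mB k) (mC k) (pcell_subset K y ψ k)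
      (pcell_subset K y ψ' k) (pcell_subset K y ψm k) (hmid k) hlam0 hL₁0 _ hw1c hlip
      (hapos k) (hapos' k)
    have e1 : ∫ x in pcell K y ψ k, gw lam x * Real.exp (lam / 2 * ‖x‖ ^ 2) = v k := by
      simp only [gw_mul_exp]
      rw [setIntegral_const, smul_eq_mul, mul_one]
      rfl
    have e2 : ∫ x in pcell K y ψ' k, gw lam x * Real.exp (lam / 2 * ‖x‖ ^ 2) = v' k := by
      simp only [gw_mul_exp]
      rw [setIntegral_const, smul_eq_mul, mul_one]
      rfl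
    rw [e1, e2] at h
    exact h
  -- second test function
  set L₂ : ℝ := q * (1 + lam * D ^ 2) with hL₂
  have hL₂0 : 0 < L₂ := by positivity
  set c₂ : ℝ := lam / (8 * L₂ ^ 2) with hc₂
  have hc₂b : 1 ≤ 430 * c₂ * D ^ 2 := by
    have e : 430 * c₂ * D ^ 2 = 430 * (lam * D ^ 2) / (8 * L₂ ^ 2) := by rw [hc₂]; ring
    rw [e, hlamD, le_div_iff₀ (by positivity), hL₂, hlamD]
    nlinarith
  have hT2 : ∀ k, Real.sqrt (a k * a' k) *
      (1 + c₂ * ‖(a k)⁻¹ • P k - (a' k)⁻¹ • P' k‖ ^ 2) ≤ c k := by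
    intro k
    set Δ : E d := (a k)⁻¹ • P k - (a' k)⁻¹ • P' k with hΔ
    set u : E d := ‖Δ‖⁻¹ • Δ with hu
    have hu1 : ‖u‖ ≤ 1 := by
      rw [hu, norm_smul, norm_inv, norm_norm]
      by_cases h0 : ‖Δ‖ = 0
      · rw [h0]; simp
      · rw [inv_mul_cancel₀ h0]
    have huΔ : inner ℝ u Δ = ‖Δ‖ := by
      rw [hu, real_inner_smul_left, real_inner_self_eq_norm_sq]
      by_cases h0 : ‖Δ‖ = 0
      · rw [h0]; simp
      · field_simp
    have hw2c : Continuous (fun x : E d => Real.exp (lam / 2 * ‖x‖ ^ 2) * inner ℝ u x) := by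
      fun_prop
    have hlip : ∀ x ∈ K, ∀ x' ∈ K,
        |Real.exp (lam / 2 * ‖x‖ ^ 2) * inner ℝ u x
          - Real.exp (lam / 2 * ‖x'‖ ^ 2) * inner ℝ u x'| ≤ L₂ * ‖x - x'‖ := by
      intro x hx x' hx'
      have h1 := w2_lip hlam0.le hu1 (hD x hx) (hD x' hx')
      rw [hω] at h1
      exact h1
    have h := tilt_step htilt hK (mA k) (mB k) (mC k) (pcell_subset K y ψ k)
      (pcell_subset K y ψ' k) (pcell_subset K y ψm k) (hmid k) hlam0 hL₂0 _ hw2c hlip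
      (hapos k) (hapos' k)
    have hcancel : ∀ x : E d,
        gw lam x * (Real.exp (lam / 2 * ‖x‖ ^ 2) * inner ℝ u x) = inner ℝ u x :=
      fun x => by rw [← mul_assoc, gw_mul_exp, one_mul]
    have e1 : ∫ x in pcell K y ψ k, gw lam x * (Real.exp (lam / 2 * ‖x‖ ^ 2) * inner ℝ u x)
        = inner ℝ u (P k) := by
      simp only [hcancel]
      exact integral_inner (integrableOn_id_of_subset hK (pcell_subset K y ψ k)) u
    have e2 : ∫ x in pcell K y ψ' k, gw lam x * (Real.exp (lam / 2 * ‖x‖ ^ 2) * inner ℝ u x)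
        = inner ℝ u (P' k) := by
      simp only [hcancel]
      exact integral_inner (integrableOn_id_of_subset hK (pcell_subset K y ψ' k)) u
    rw [e1, e2] at h
    have e3 : inner ℝ u (P k) / a k - inner ℝ u (P' k) / a' k = ‖Δ‖ := by
      rw [← huΔ, hΔ, inner_sub_right, real_inner_smul_right, real_inner_smul_right]
      ring
    rw [e3] at h
    exact h
  have hS1 : c₁ * ∑ k, Real.sqrt (a k * a' k) * (v k / a k - v' k / a' k) ^ 2
      ≤ G - ∑ k, Real.sqrt (a k * a' k) := by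
    have h := Finset.sum_le_sum (fun k (_ : k ∈ Finset.univ) => hT1 k)
    rw [hsumC] at h
    have e : ∀ k, Real.sqrt (a k * a' k) * (1 + c₁ * (v k / a k - v' k / a' k) ^ 2)
        = Real.sqrt (a k * a' k)
          + c₁ * (Real.sqrt (a k * a' k) * (v k / a k - v' k / a' k) ^ 2) := fun k => by ring
    simp only [e, Finset.sum_add_distrib, ← Finset.mul_sum] at h
    linarith
  have hS2 : c₂ * ∑ k, Real.sqrt (a k * a' k) * ‖(a k)⁻¹ • P k - (a' k)⁻¹ • P' k‖ ^ 2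
      ≤ G - ∑ k, Real.sqrt (a k * a' k) := by
    have h := Finset.sum_le_sum (fun k (_ : k ∈ Finset.univ) => hT2 k)
    rw [hsumC] at h
    have e : ∀ k, Real.sqrt (a k * a' k) * (1 + c₂ * ‖(a k)⁻¹ • P k - (a' k)⁻¹ • P' k‖ ^ 2)
        = Real.sqrt (a k * a' k)
          + c₂ * (Real.sqrt (a k * a' k) * ‖(a k)⁻¹ • P k - (a' k)⁻¹ • P' k‖ ^ 2) :=
      fun k => by ring
    simp only [e, Finset.sum_add_distrib, ← Finset.mul_sum] at h
    linarith
  have key := habs (Fin (n + 1)) D q c₁ c₂ G a a' v v' P P' hD0 hq1 hq2 hc₁6 hc₂b hvpos hvclose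
    hab hab' hPb hPb' hsumA hsumB hS1 hS2
  have e1 : ∀ k, ‖cmom K y ψ' k - cmom K y ψ k‖ ^ 2 / cmass K y ψ k
      = V⁻¹ * (‖P' k - P k‖ ^ 2 / v k) := by
    intro k
    rw [hmomP' k, hmomP k, hm k, ← smul_sub, norm_smul, mul_pow, Real.norm_eq_abs, sq_abs]
    have h1 := hvpos k
    field_simp
  have e2 : ∀ k, (cmass K y ψ' k - cmass K y ψ k) ^ 2 / cmass K y ψ k
      = V⁻¹ * ((v' k - v k) ^ 2 / v k) := by
    intro k
    rw [hm k, hm' k]
    have h1 := hvpos k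
    field_simp
  simp only [e1, e2, ← Finset.mul_sum]
  calc V⁻¹ * ∑ k, ‖P' k - P k‖ ^ 2 / v k
      ≤ V⁻¹ * (2500 * D ^ 2 * ∑ k, (v' k - v k) ^ 2 / v k) :=
        mul_le_mul_of_nonneg_left key (inv_pos.2 hVpos).le
    _ = 2500 * D ^ 2 * (V⁻¹ * ∑ k, (v' k - v k) ^ 2 / v k) := by ring

end Vale.Agent.Lib.P074
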