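import Vale.Agent.Lib.P074.Main
import Vale.Agent.Lib.P074.DefsW1

namespace Vale.Agent.Lib.P074

open MeasureTheory ENNReal

variable {d : ℕ}

/-- An upper bound for `W_1` of two image measures by the cost of the induced coupling. -/
lemma W1_map_le (ρ : Measure (E d)) (F G : E d → E d) (hF : Measurable F) (hG : Measurable G) :
    W1 (ρ.map F) (ρ.map G) ≤ ∫⁻ x, ENNReal.ofReal ‖F x - G x‖ ∂ρ := by
  unfold W1
  have hFG : Measurable (fun x => (F x, G x)) := hF.prodMk hG
  refine iInf_le_of_le (ρ.map (fun x => (F x, G x))) (iInf_le_of_le ⟨?_, ?_⟩ ?_)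
  · rw [Measure.map_map measurable_fst hFG]; rfl
  · rw [Measure.map_map measurable_snd hFG]; rfl
  · have hm : Measurable (fun p : E d × E d => ENNReal.ofReal ‖p.1 - p.2‖) := by fun_prop
    rw [lintegral_map hm hFG]

/-- The quantitative core for `W_1`: on the cube `[-1,1]^d`, for every `0 < s ≤ 1/2`, there are
two-atom targets in the ball of radius `2` whose optimal maps are at `L^2` distance at least
`sqrt (s/16)` while `W_1 ≤ 2 s^2`. -/
lemma exists_pair1 {i₀ i₁ : Fin d} (h : i₀ ≠ i₁) {s : ℝ} (hs0 : 0 < s) (hs1 : s ≤ 1 / 2) :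
    ∃ (μ ν : Measure (E d)) (T S : E d → E d),
      IsProbabilityMeasure μ ∧ IsProbabilityMeasure ν ∧
      μ (Metric.closedBall (0 : E d) 2) = 1 ∧ ν (Metric.closedBall (0 : E d) 2) = 1 ∧
      IsOptMap (unif (cube d)) μ T ∧ IsOptMap (unif (cube d)) ν S ∧
      W1 μ ν ≤ ENNReal.ofReal (2 * s ^ 2) ∧
      ENNReal.ofReal (s / 16) ^ (1 / 2 : ℝ) ≤ eLpNorm (fun x => T x - S x) 2 (unif (cube d)) := by
  have := isProbabilityMeasure_unif_cube h
  set ρ := unif (cube d) with hρ
  set yp := yv i₀ i₁ s with hyp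
  set ym := yv i₀ i₁ (-s) with hym
  set c : ℝ := 1 - s with hc
  have hTm : Measurable (capMap yp c yp) := measurable_capMap _ _ _
  have hSm : Measurable (capMap ym c ym) := measurable_capMap _ _ _
  have hT'm : Measurable (capMap yp c ym) := measurable_capMap _ _ _
  refine ⟨ρ.map (capMap yp c yp), ρ.map (capMap ym c ym), capMap yp c yp, capMap ym c ym,
    Measure.isProbabilityMeasure_map hTm.aemeasurable,
    Measure.isProbabilityMeasure_map hSm.aemeasurable,
    map_capMap_ball ρ yp c (norm_yv_le h (by rw [abs_of_pos hs0]; linarith)),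
    map_capMap_ball ρ ym c (norm_yv_le h (by rw [abs_neg, abs_of_pos hs0]; linarith)),
    isOptMap_capMap ρ yp (yv_ne_zero h s) c, isOptMap_capMap ρ ym (yv_ne_zero h (-s)) c, ?_, ?_⟩
  · have hsymm : ρ.map (capMap ym c ym) = ρ.map (capMap yp c ym) := map_capMap_symm h s c ym
    rw [hsymm]
    refine (W1_map_le ρ _ _ hTm hT'm).trans ?_
    have hind : (fun x => ENNReal.ofReal ‖capMap yp c yp x - capMap yp c ym x‖) =
        Set.indicator {x : E d | c ≤ inner ℝ x yp} (fun _ => ENNReal.ofReal ‖yp - ym‖) := by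
      funext x
      by_cases hx : c ≤ inner ℝ x yp
      · rw [Set.indicator_of_mem (by exact hx)]
        simp [capMap, hx]
      · rw [Set.indicator_of_notMem (by exact hx)]
        simp [capMap, hx]
    rw [hind, lintegral_indicator_const (measurableSet_cap yp c)]
    have hn : ENNReal.ofReal ‖yp - ym‖ = ENNReal.ofReal (2 * s) := by
      rw [hyp, hym, norm_yv_sub, abs_of_pos hs0]
    rw [hn]
    have hcap : ρ {x : E d | c ≤ inner ℝ x yp} ≤ ENNReal.ofReal s :=
      unif_cap_le h hs0.le (by linarith)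
    calc ENNReal.ofReal (2 * s) * ρ {x : E d | c ≤ inner ℝ x yp}
        ≤ ENNReal.ofReal (2 * s) * ENNReal.ofReal s := by gcongr
      _ = ENNReal.ofReal (2 * s ^ 2) := by
          rw [← ENNReal.ofReal_mul (by positivity)]
          congr 1
          ring
  · rw [eLpNorm_two_eq]
    apply ENNReal.rpow_le_rpow _ (by norm_num)
    have hD : ρ (bx i₀ i₁ (1 - 3 * s / 2) (1 - s) (1 / 2) 1) = ENNReal.ofReal (s / 16) := by
      rw [hρ, unif_cube_bx h (by linarith) (by linarith) (by linarith) (by norm_num)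
        (by norm_num) le_rfl]
      congr 1
      ring
    rw [← hD, ← one_mul (ρ _), ← lintegral_indicator_const (measurableSet_bx _ _ _ _ _ _)]
    apply lintegral_mono
    intro x
    by_cases hx : x ∈ bx i₀ i₁ (1 - 3 * s / 2) (1 - s) (1 / 2) 1
    · rw [Set.indicator_of_mem hx]
      have h0 := hx i₀
      have h1 := hx i₁
      simp only [lo, hi, if_true, h.symm, if_false] at h0 h1
      have hxp : c ≤ inner ℝ x yp := by
        rw [hyp, inner_yv, hc]
        nlinarith [h0.1, h1.1]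
      have hxm : ¬ c ≤ inner ℝ x ym := by
        rw [hym, inner_yv, hc, not_le]
        nlinarith [h0.2, h1.1]
      have e : capMap yp c yp x - capMap ym c ym x = yp := by
        simp [capMap, hxp, hxm]
      show 1 ≤ ENNReal.ofReal (‖capMap yp c yp x - capMap ym c ym x‖ ^ 2)
      rw [e]
      have := one_le_norm_yv h s
      rw [← ENNReal.ofReal_one]
      apply ENNReal.ofReal_le_ofReal
      rw [← hyp] at this
      nlinarith
    · rw [Set.indicator_of_notMem hx]
      exact zero_le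

/-- For `α > 1/4` and any constant, a small parameter `t` breaks the Hoelder bound. -/
lemma exists_small1 (C : ℝ) (hC : 0 < C) (α : ℝ) (hα : 1 / 4 < α) :
    ∃ t : ℝ, 0 < t ∧ t ≤ 1 / 2 ∧ C * (2 * t ^ 4) ^ α < t / 4 := by
  set γ : ℝ := 4 * α - 1 with hγ
  have hγ0 : 0 < γ := by rw [hγ]; linarith
  have h2α : (0 : ℝ) < 2 ^ α := Real.rpow_pos_of_pos (by norm_num) α
  set M : ℝ := 1 / (8 * C * 2 ^ α) with hM
  have hM0 : 0 < M := by rw [hM]; positivity
  have hMγ : 0 < M ^ (1 / γ) := Real.rpow_pos_of_pos hM0 _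
  refine ⟨min (1 / 2) (M ^ (1 / γ)), lt_min (by norm_num) hMγ, min_le_left _ _, ?_⟩
  set t : ℝ := min (1 / 2) (M ^ (1 / γ)) with ht
  have ht0 : 0 < t := lt_min (by norm_num) hMγ
  have htγ : t ^ γ ≤ M := by
    calc t ^ γ ≤ (M ^ (1 / γ)) ^ γ :=
          Real.rpow_le_rpow ht0.le (min_le_right _ _) hγ0.le
      _ = M := by
          rw [← Real.rpow_mul hM0.le, one_div, inv_mul_cancel₀ hγ0.ne', Real.rpow_one]
  have e1 : (2 * t ^ 4) ^ α = 2 ^ α * (t * t ^ γ) := by
    rw [Real.mul_rpow (by norm_num) (by positivity)]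
    congr 1
    rw [← Real.rpow_natCast t 4, ← Real.rpow_mul ht0.le]
    have : ((4 : ℕ) : ℝ) * α = 1 + γ := by rw [hγ]; push_cast; ring
    rw [this, Real.rpow_add ht0, Real.rpow_one]
  rw [e1]
  have h8 : C * 2 ^ α * M = 1 / 8 := by
    rw [hM]; field_simp
  calc C * (2 ^ α * (t * t ^ γ)) = t * (C * 2 ^ α * t ^ γ) := by ring
    _ ≤ t * (C * 2 ^ α * M) := by gcongr
    _ = t / 8 := by rw [h8]; ring
    _ < t / 4 := by linarith

/-- In every dimension `d ≥ 2`, no exponent `α > 1/4` is admissible for `W_1`. -/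
theorem not_admissible1 (d : ℕ) (hd : 2 ≤ d) (α : ℝ) (hα : 1 / 4 < α) : ¬ Admissible1 d α := by
  intro hA
  let i₀ : Fin d := ⟨0, by omega⟩
  let i₁ : Fin d := ⟨1, by omega⟩
  have h : i₀ ≠ i₁ := by
    intro h01
    have := congrArg Fin.val h01
    simp [i₀, i₁] at this
  obtain ⟨C, hC⟩ := hA (cube d) (isCompact_cube d) (convex_cube d) (interior_cube_nonempty d)
    (Metric.closedBall 0 2) (isCompact_closedBall 0 2) ⟨0, by simp⟩
  have hC'0 : 0 < max C 1 := lt_of_lt_of_le one_pos (le_max_right _ _)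
  obtain ⟨t, ht0, ht1, htC⟩ := exists_small1 (max C 1) hC'0 α hα
  obtain ⟨μ, ν, T, S, hμ, hν, hμY, hνY, hT, hS, hW, hL⟩ :=
    exists_pair1 h (s := t ^ 2) (by positivity) (by nlinarith)
  have key := hC μ ν hμ hν hμY hνY T S hT hS
  have e1 : ENNReal.ofReal (t ^ 2 / 16) ^ (1 / 2 : ℝ) = ENNReal.ofReal (t / 4) := by
    rw [ENNReal.ofReal_rpow_of_nonneg (by positivity) (by norm_num)]
    congr 1
    rw [show t ^ 2 / 16 = (t / 4) ^ 2 by ring, ← Real.sqrt_eq_rpow, Real.sqrt_sq (by positivity)]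
  have e2 : (2 : ℝ) * (t ^ 2) ^ 2 = 2 * t ^ 4 := by ring
  have hα0 : 0 ≤ α := by linarith
  have hW' : W1 μ ν ^ α ≤ ENNReal.ofReal ((2 * t ^ 4) ^ α) := by
    rw [← ENNReal.ofReal_rpow_of_nonneg (by positivity) hα0]
    exact ENNReal.rpow_le_rpow (hW.trans_eq (by rw [e2])) hα0
  have hfin : ENNReal.ofReal (t / 4) ≤ ENNReal.ofReal (max C 1 * (2 * t ^ 4) ^ α) := by
    calc ENNReal.ofReal (t / 4) = ENNReal.ofReal (t ^ 2 / 16) ^ (1 / 2 : ℝ) := e1.symm
      _ ≤ eLpNorm (fun x => T x - S x) 2 (unif (cube d)) := hL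
      _ ≤ ENNReal.ofReal C * W1 μ ν ^ α := key
      _ ≤ ENNReal.ofReal (max C 1) * ENNReal.ofReal ((2 * t ^ 4) ^ α) :=
          mul_le_mul' (ENNReal.ofReal_le_ofReal (le_max_left _ _)) hW'
      _ = ENNReal.ofReal (max C 1 * (2 * t ^ 4) ^ α) :=
          (ENNReal.ofReal_mul hC'0.le).symm
  rw [ENNReal.ofReal_le_ofReal_iff (by positivity)] at hfin
  linarith

/-- Consequently the supremum of the exponents admissible for `W_1` is at most `1/4`. -/
theorem sSup_admissible1_le (d : ℕ) (hd : 2 ≤ d) :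
    sSup {α : ℝ | 0 < α ∧ α ≤ 1 ∧ Admissible1 d α} ≤ 1 / 4 := by
  apply Real.sSup_le
  · rintro α ⟨_, _, hA⟩
    by_contra hlt
    exact not_admissible1 d hd α (not_le.mp hlt) hA
  · norm_num

end Vale.Agent.Lib.P074
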